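import Vale.Agent.P132.Iface
import Vale.Agent.P132.Modular.Main
import Vale.Agent.P132.Homog.Main
import Vale.Agent.P132.Flow.Main
import Vale.Agent.P132.Random.Main
import Vale.Agent.P132.Fixed.Main
import Vale.Agent.P132.Scalar.Main
import Vale.Agent.P132.GNS.Main

/-!
# Connes' bicentralizer problem: the bicentralizer is trivial
-/

namespace Vale.Agent.Results.P132.BicentralizerTrivial

open Vale.Agent.P132

universe u

/-- Every faithful normal state of a type III factor whose states all have full modular spectrum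
has trivial bicentralizer. -/
theorem result : ∀ (H : Type u) [NormedAddCommGroup H] [InnerProductSpace ℂ H] [CompleteSpace H]
    [TopologicalSpace.SeparableSpace H] (M : VonNeumannAlgebra H) (φ : (H →L[ℂ] H) →ₗ[ℂ] ℂ),
    IsState M φ → IsTypeIII M → HasFullSpectrum M →
      ∀ a : H →L[ℂ] H, InBicentralizer M φ a ↔ ∃ c : ℂ, a = c • (1 : H →L[ℂ] H) := by
  intro H _ _ _ _ M φ hφ h3 hS a
  refine ⟨Iface.main_of Modular.stmtModular (Homog.stmtHomog Modular.stmtModular) Flow.stmtFlow
    (Fixed.stmtFixed Flow.stmtBic Random.stmtDissip)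
    (Scalar.stmtScalar Flow.stmtBic Flow.stmtWeight) GNS.stmtGNS H M φ hφ h3 hS a, ?_⟩
  rintro ⟨c, rfl⟩
  refine ⟨M.toStarSubalgebra.smul_mem (one_mem _) c,
    fun w _ _ _ v => ?_⟩
  simp

end Vale.Agent.Results.P132.BicentralizerTrivial
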